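import Vale.Agent.P122.H540.Spec
import Vale.Agent.P122.H518.E12
import Vale.Agent.P122.H563.Prof

/-!
# P122 / H679 : assembly of E9 = (P) from the parts of `H540/Spec.lean` (helper679)

`e9_core` : `StExc`, `StBox`, `StPQ`, `StQdg`, `StPch`, `StDE`, `StPsi κ C` give `E9 κ C` for `κ ≤ 1 / 4`, `5 ≤ C`.
`e9_of` : the form used in the composition.
-/

set_option autoImplicit false

namespace Vale.Agent.P122.H679

open Filter Topology Finset Vale.Agent.P127 Vale.Agent.P127.Stk Vale.Agent.P127.U Vale.Agent.P127.U.Sys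
  Vale.Agent.P122.C2 Vale.Agent.P122.E Vale.Agent.P122.H540

section tools

variable {S : Sys} {α β γ : Type*}

theorem fn_trans {X : S.RV α} {Y : S.RV β} {Z : S.RV γ} (h : Sys.Fn X Y) (h' : Sys.Fn Y Z) : Sys.Fn X Z := by
  filter_upwards [h, h'] with i h1 h2 ω ω' p p' e
  exact h1 ω ω' p p' (h2 ω ω' p p' e)

end tools

variable {K : ℕ} {F : Flg K}

theorem Y_fn {i j : ℕ} (hij : i ≤ j) (hj : j ≤ K) : Sys.Fn (F.Y i) (F.Y j) := by
  induction j, hij using Nat.le_induction with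
  | base => exact Eventually.of_forall fun _ _ _ _ _ e => e
  | succ j hij ih => exact fn_trans (ih (by omega)) (H518.F_YY F (by omega))

theorem nu_m' (hK : 1 ≤ K) (c : ℕ) : ulim (fun a => ((c * F.n a : ℕ) : ℝ) / F.S.L a) = (c : ℝ) / K :=
  H563.nu_m F hK c

/-- the thickness of the fattened plank -/
theorem nu_min (hK : 1 ≤ K) {jj : ℕ → ℕ} {c : ℕ} (hjj : ∀ᶠ a in (uf : Filter ℕ), jj a ≤ c * F.n a) (m : ℕ) :
    min (F.S.nu jj) ((m : ℝ) / K) ≤ F.S.nu fun a => min (jj a) (m * F.n a) := by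
  have hKp : (0 : ℝ) < K := by exact_mod_cast hK
  have h1 : UB fun a => (jj a : ℝ) / F.S.L a := by
    refine UB.of_le (C := (c : ℝ) / K) (Eventually.of_forall fun a => by positivity) ?_
    filter_upwards [H563.n_pos F, hjj] with a ha hk
    rw [ha.2, div_le_div_iff₀ (mul_pos hKp ha.1) hKp]
    have : (jj a : ℝ) ≤ c * F.n a := by exact_mod_cast hk
    nlinarith
  have h2 : UB fun a => ((m * F.n a : ℕ) : ℝ) / F.S.L a := by
    refine UB.of_le (C := (m : ℝ) / K) (Eventually.of_forall fun a => by positivity) ?_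
    filter_upwards [H563.n_pos F] with a ha
    rw [ha.2, div_le_div_iff₀ (mul_pos hKp ha.1) hKp]
    push_cast
    nlinarith
  have h3 : F.S.nu (fun a => min (jj a) (m * F.n a)) =
      ulim fun a => min ((jj a : ℝ) / F.S.L a) (((m * F.n a : ℕ) : ℝ) / F.S.L a) := by
    unfold Sys.nu
    refine ulim_congr (Eventually.of_forall fun a => ?_)
    show ((min (jj a) (m * F.n a) : ℕ) : ℝ) / F.S.L a = _
    rw [Nat.cast_min]
    exact (min_div_div_right (Nat.cast_nonneg _) _ _).symm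
  rw [h3]
  have e2 : ulim (fun a => ((m * F.n a : ℕ) : ℝ) / F.S.L a) = (m : ℝ) / K := nu_m' hK m
  have h4 := h1.tendsto.min h2.tendsto
  rw [e2] at h4
  rw [ulim_eq h4]
  exact le_rfl

/-- **assembly** -/
theorem e9_core {κ C : ℝ} (hκ : κ ≤ 1 / 4) (hC : 5 ≤ C) (hExc : StExc) (hBox : StBox) (hPQ : StPQ) (hQ : StQdg)
    (hP : StPch) (hDE : StDE) (hPsi : StPsi κ C) : E9 κ C := by
  classical
  intro K F J θ H e W kk jj c1 φ JF hK hc1 hCK hB i j u hij hj2 hjK hiu hnear hthin hα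
  have hKp : (0 : ℝ) < K := by exact_mod_cast hK
  have hA := hB.toRegA
  rcases Nat.eq_zero_or_pos i with hi0 | hi1
  · have hj0 : j = 0 := by omega
    have hu0 : u = 0 := by omega
    subst hi0 hj0 hu0
    have : 0 ≤ C / K := by positivity
    simp only [Nat.sub_self, sub_self, mul_zero, add_zero]
    linarith
  have h5K : 5 / (K : ℝ) ≤ c1 := (div_le_div_of_nonneg_right hC hKp.le).trans hCK
  have e1K : 5 / (K : ℝ) = 5 * (1 / K) := by ring
  have p1K : 0 < 1 / (K : ℝ) := by positivity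
  have hti := hthin i (by omega) hij
  -- the common frame
  obtain ⟨ψ, hψ⟩ := hPsi F J θ H e W kk jj hK hA c1 i j hc1 hi1 hij hj2 hjK hnear hCK hthin
  -- the shape of the plank
  have hexc := hExc F J θ H e W kk jj hK hA i (by omega)
  have hjjle : ∀ᶠ a in (uf : Filter ℕ), jj i a ≤ i * F.n a := by
    filter_upwards [hA.Wok i (by omega)] with a ha
    obtain ⟨ω, hω⟩ := H563.exists_supp (F.S.P a)
    exact (ha ω hω).2.2.2.2.2
  obtain ⟨ht1, ht2⟩ := hti
  have hαdef : nα F jj i = 2 * i / K - F.S.nu (jj i) := rfl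
  rw [hαdef] at ht2 hα
  have habs := abs_le.1 hα
  have hjiK : ((j : ℝ) - i) / K = j / K - i / K := by ring
  have h2ij : (((2 * i - j : ℕ) : ℝ)) / K = 2 * i / K - j / K := by
    rw [Nat.cast_sub hj2]
    push_cast
    ring
  have e2iK : 2 * (i : ℝ) / K = i / K + i / K := by ring
  have eiu : ((i : ℝ) + u) / K = i / K + u / K := by ring
  have hkk : F.S.nu (kk i) < ((2 * i - j : ℕ) : ℝ) / K := by
    rw [h2ij]
    have hκe : κ * e i ≤ 1 / 4 * e i := mul_le_mul_of_nonneg_right hκ (hc1.le.trans ht1)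
    have hκc : κ * c1 ≤ 1 / 4 * c1 := mul_le_mul_of_nonneg_right hκ hc1.le
    rw [hjiK] at hnear
    linarith
  have hbox := hBox F J θ H e W kk jj hK hA i j hi1 hij hj2 hjK hkk
  -- the size loss
  have hmin := nu_min (F := F) hK hjjle (2 * i - j)
  have hloss : F.S.nu (jj i) - F.S.nu (fun a => min (jj i a) ((2 * i - j) * F.n a)) ≤
      ((j : ℝ) - i - u) / K + 1 / K := by
    have ejiu : ((j : ℝ) - i - u) / K = j / K - i / K - u / K := by ring
    have hjiu : 0 ≤ ((j : ℝ) - i - u) / K := by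
      have : (i : ℝ) + u ≤ j := by exact_mod_cast hiu
      exact div_nonneg (by linarith) hKp.le
    rcases le_total (F.S.nu (jj i)) (((2 * i - j : ℕ) : ℝ) / K) with h | h
    · rw [min_eq_left h] at hmin
      linarith
    · rw [min_eq_right h, h2ij] at hmin
      rw [ejiu]
      linarith [habs.1, habs.2]
  -- tameness
  have tN : ∀ c, c ≤ K → Tame (F.N c) := fun c hc => H518.cnt_tame (hA.N1 c hc)
  have tV : Tame (vL F W i) := H518.cnt_tame (hA.W1 i (by omega))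
  have fsg : Sys.Fn (F.sig i j) (F.N i) := Eventually.of_forall fun a ω ω' _ _ e' => by
    show (⟨_, _, _⟩ : Nd) = ⟨_, _, _⟩
    rw [e']
  have tp : Tame (pD F i j u ψ) := (tN i (by omega)).mono (by
    filter_upwards [fsg] with a ha ω ω' hω hω' e'
    have h1 := ha ω ω' hω hω' e'
    show pdg (F.n a) u (ψ a (F.sig i j a ω)) (F.N i a ω) = pdg (F.n a) u (ψ a (F.sig i j a ω')) (F.N i a ω')
    rw [h1, e'])
  have tq : Tame (qD F i j (i - u) ψ) := (tN i (by omega)).mono (by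
    filter_upwards [fsg, H518.F_YN F i] with a ha hb ω ω' hω hω' e'
    have h1 := ha ω ω' hω hω' e'
    have h2 := hb ω ω' hω hω' e'
    show ⌊2 ^ ((i - u) * F.n a) * fn (ψ a (F.sig i j a ω)) (F.s a i (F.Y i a ω))⌋ =
      ⌊2 ^ ((i - u) * F.n a) * fn (ψ a (F.sig i j a ω')) (F.s a i (F.Y i a ω'))⌋
    rw [h1, h2])
  -- the digits
  have hpq := hPQ F J θ H e W kk jj hK hA c1 i j u ψ hi1 hij hj2 hjK hiu hc1
    (hnear.trans (by nlinarith)) hα hψ
  have a1 : F.S.hc (Sys.pr (pD F i j u ψ) (qD F i j (i - u) ψ)) (F.sig i j) ≤ F.S.hc (vL F W i) (F.sig i j) + 2 / K := by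
    have h1 := hc_le_add (tp.pr tq) tV (F.sig i j)
    linarith
  have a2 : F.S.hc (qD F i j (i - u) ψ) (F.sig i j) + F.S.hc (pD F i j u ψ) (Sys.pr (F.sig i j) (F.N j)) ≤
      F.S.hc (Sys.pr (pD F i j u ψ) (qD F i j (i - u) ψ)) (F.sig i j) := by
    have h1 := hc_pair tq tp (F.sig i j)
    have h2 : F.S.hc (Sys.pr (qD F i j (i - u) ψ) (pD F i j u ψ)) (F.sig i j) =
        F.S.hc (Sys.pr (pD F i j u ψ) (qD F i j (i - u) ψ)) (F.sig i j) := by
      refine hc_congr ?_ ?_ (Eventually.of_forall fun _ _ _ _ _ e' => e') (Eventually.of_forall fun _ _ _ _ _ e' => e')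
      · exact Eventually.of_forall fun a ω ω' _ _ e' => by
          have e1 := congrArg (fun z => z.1.1) e'
          have e2 := congrArg (fun z => z.1.2) e'
          exact Prod.ext e2 e1
      · exact Eventually.of_forall fun a ω ω' _ _ e' => by
          have e1 := congrArg (fun z => z.1.1) e'
          have e2 := congrArg (fun z => z.1.2) e'
          exact Prod.ext e2 e1
    have h3 : F.S.hc (pD F i j u ψ) (Sys.pr (F.sig i j) (F.N j)) ≤
        F.S.hc (pD F i j u ψ) (Sys.pr (qD F i j (i - u) ψ) (F.sig i j)) := by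
      refine hc_mono_right tp ?_
      filter_upwards [Y_fn (F := F) hij hjK, H518.F_YN F j] with a hY hN ω ω' hω hω' e'
      have e1 : F.sig i j a ω = F.sig i j a ω' := congrArg Prod.fst e'
      have e2 : F.N j a ω = F.N j a ω' := congrArg Prod.snd e'
      have e3 : F.Y i a ω = F.Y i a ω' := hY ω ω' hω hω' (hN ω ω' hω hω' e2)
      refine Prod.ext ?_ e1
      show ⌊2 ^ ((i - u) * F.n a) * fn (ψ a (F.sig i j a ω)) (F.s a i (F.Y i a ω))⌋ =
        ⌊2 ^ ((i - u) * F.n a) * fn (ψ a (F.sig i j a ω')) (F.s a i (F.Y i a ω'))⌋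
      rw [e1, e3]
    linarith
  have a3 : F.S.hc (F.N i) (Sys.pr (F.sig i j) (F.N j)) ≤
      F.S.hc (F.N i) (Sys.pr (pD F i j u ψ) (Sys.pr (F.sig i j) (F.N j))) +
        F.S.hc (pD F i j u ψ) (Sys.pr (F.sig i j) (F.N j)) :=
    hc_le_add (tN i (by omega)) tp _
  have a4 := hP F J θ H e W kk jj κ c1 φ JF hK hc1 hB i j u ψ hi1 hij hj2 hjK hiu (by
    have : 2 / (K : ℝ) = 2 * (1 / K) := by ring
    rw [this]; linarith) hthin hψ
  have a5 := hQ F J θ H e W kk jj κ c1 φ JF hK hc1 hB i j u ψ hi1 hij hj2 hjK hiu (by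
    have : 2 / (K : ℝ) = 2 * (1 / K) := by ring
    rw [this]; linarith) hthin hψ
  obtain ⟨a6, a7⟩ := hDE F J θ H e W kk jj hK hA i j hi1 hij hj2 hjK
  -- sums
  have s1 : ∑ c ∈ Ico i (i + u), (2 / (K : ℝ) - 2 * θ c) = 2 * (u : ℝ) / K - 2 * ∑ c ∈ Ico i (i + u), θ c := by
    rw [Finset.sum_sub_distrib, Finset.sum_const, Nat.card_Ico, nsmul_eq_mul, ← Finset.mul_sum]
    have : ((i + u - i : ℕ) : ℝ) = u := by
      rw [Nat.add_sub_cancel_left]
    rw [this]
    ring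
  have s2 : ∑ c ∈ Ico (i + u) j, (1 / (K : ℝ) - 2 * θ c + JF c) =
      ((j : ℝ) - i - u) / K - 2 * ∑ c ∈ Ico (i + u) j, θ c + ∑ c ∈ Ico (i + u) j, JF c := by
    rw [Finset.sum_add_distrib, Finset.sum_sub_distrib, Finset.sum_const, Nat.card_Ico, nsmul_eq_mul, ← Finset.mul_sum,
      Nat.cast_sub hiu]
    push_cast
    ring
  have s3 : ∑ c ∈ Ico i j, θ c = ∑ c ∈ Ico i (i + u), θ c + ∑ c ∈ Ico (i + u) j, θ c :=
    (Finset.sum_Ico_consecutive _ (Nat.le_add_right _ _) hiu).symm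
  have g1 : ng F e jj κ c1 JF j - ng F e jj κ c1 JF (i + u) = ∑ c ∈ Ico (i + u) j, JF c := by
    unfold ng
    rw [← Finset.sum_Ico_eq_sub _ hiu]
    refine Finset.sum_congr rfl fun c hc => ?_
    rw [Finset.mem_Ico] at hc
    rw [if_pos ⟨by omega, hthin c (by omega) (by omega)⟩]
  have g2 : ng F e jj κ c1 JF (i - u) - ng F e jj κ c1 JF (2 * i - j) =
      ∑ c ∈ Ico (2 * i - j) (i - u), (if 1 ≤ c then JF c else 0) := by
    unfold ng
    rw [← Finset.sum_Ico_eq_sub _ (by omega : 2 * i - j ≤ i - u)]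
    refine Finset.sum_congr rfl fun c hc => ?_
    rw [Finset.mem_Ico] at hc
    by_cases h1c : 1 ≤ c
    · rw [if_pos ⟨h1c, hthin c (by omega) (by omega)⟩, if_pos h1c]
    · rw [if_neg (fun h => h1c h.1), if_neg h1c]
  rw [g1, g2]
  rw [s1, s2] at a4
  have q1 : 2 * ((j : ℝ) - i) / K = 2 * (u : ℝ) / K + 2 * (((j : ℝ) - i - u) / K) := by ring
  have q2 : 2 / (K : ℝ) = 2 * (1 / K) := by ring
  have q3 : 5 * (1 / (K : ℝ)) ≤ C / K := by
    rw [← e1K]
    exact div_le_div_of_nonneg_right hC hKp.le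
  rw [q1] at a7
  rw [q2] at a1
  linarith

/-- `StPsi` is monotone in the constant -/
theorem StPsi.mono {κ C C' : ℝ} (h : StPsi κ C) (hC : C ≤ C') : StPsi κ C' := by
  intro K F J θ H e W kk jj hK hA c1 i j hc1 hi1 hij hj2 hjK hnear hCK hthin
  have hKp : (0 : ℝ) < K := by exact_mod_cast hK
  exact h F J θ H e W kk jj hK hA c1 i j hc1 hi1 hij hj2 hjK hnear
    ((div_le_div_of_nonneg_right hC hKp.le).trans hCK) hthin

/-- **E9**, all small `κ` -/
theorem e9_of (hExc : StExc) (hBox : StBox) (hPQ : StPQ) (hQ : StQdg) (hP : StPch) (hDE : StDE)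
    (hPsi : ∃ κ0 : ℝ, 0 < κ0 ∧ ∀ κ : ℝ, 0 < κ → κ ≤ κ0 → ∃ C : ℝ, StPsi κ C) :
    ∃ κ0 : ℝ, 0 < κ0 ∧ ∀ κ : ℝ, 0 < κ → κ ≤ κ0 → ∃ C : ℝ, E9 κ C := by
  obtain ⟨κ0, hκ0, h⟩ := hPsi
  refine ⟨min κ0 (1 / 4), lt_min hκ0 (by norm_num), fun κ hκ hκ' => ?_⟩
  obtain ⟨C, hC⟩ := h κ hκ (hκ'.trans (min_le_left _ _))
  exact ⟨max C 5, e9_core (hκ'.trans (min_le_right _ _)) (le_max_right _ _) hExc hBox hPQ hQ hP hDE
    (StPsi.mono hC (le_max_left _ _))⟩

/-- the same with uniform constants -/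
theorem e9_of' {κ0 C : ℝ} (hExc : StExc) (hBox : StBox) (hPQ : StPQ) (hQ : StQdg) (hP : StPch) (hDE : StDE)
    (hPsi : ∀ κ : ℝ, 0 < κ → κ ≤ κ0 → StPsi κ C) (κ : ℝ) (hκ : 0 < κ) (h1 : κ ≤ min κ0 (1 / 4)) : E9 κ (max C 5) :=
  e9_core (h1.trans (min_le_right _ _)) (le_max_right _ _) hExc hBox hPQ hQ hP hDE
    (StPsi.mono (hPsi κ hκ (h1.trans (min_le_left _ _))) (le_max_left _ _))

end Vale.Agent.P122.H679
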