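import Vale.Agent.P122.H679.E9Asm
import Vale.Agent.P122.H420.Psi
import Vale.Agent.P122.H624.BoxB
import Vale.Agent.P122.H812.PQ
import Vale.Agent.P122.H371.QHalf
import Vale.Agent.P122.H540.SysA
import Vale.Agent.P122.H655.E3
import Vale.Agent.P122.H563.Mono

/-! # P122 / H679 : E9 from E4, E8 and `StExc` (helper679) -/

set_option autoImplicit false

namespace Vale.Agent.P122.H679

open Vale.Agent.P122.E Vale.Agent.P122.H540

/-- E9 in the form of `S.StE9` -/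
theorem stE9_of (h4 : E4) (hx : StExc) (h8 : ∃ κ : ℝ, 0 < κ ∧ ∃ C : ℝ, E8 κ C) :
    ∃ κ0 : ℝ, 0 < κ0 ∧ ∀ κ : ℝ, 0 < κ → κ ≤ κ0 → ∃ C : ℝ, E9 κ C := by
  obtain ⟨κ8, hκ8, C8, h8⟩ := h8
  refine e9_of hx (H624.stBox H518.e1 H655.e3 h4) H812.stPQ H371.stQdg H540.stPch H540.stDE
    ⟨min κ8 (1 / 4), lt_min hκ8 (by norm_num), fun κ hκ hκ' => ⟨max C8 2, ?_⟩⟩
  exact H420.stPsi (hκ'.trans (min_le_right _ _)) (le_max_right _ _) hx
    (H563.E8.mono (le_max_left _ _) (hκ'.trans (min_le_left _ _)) h8)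

end Vale.Agent.P122.H679
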