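import Vale.Agent.P122.E.Defs

/-!
# P122 / H679 : frames of the pieces `sg` at the thin levels from E8 (helper679)

* `ang` : the angle of the optimal plank as a function of the node.
* `frames` : frames `φ c i (sg c)` such that the plank of level `c` has the direction `φ` up to a rare event.
* `bad` : the bad nodes; `bad_rare`, `good_of_not_bad`.
-/

set_option autoImplicit false

namespace Vale.Agent.P122.H679

open Filter Topology Finset Vale.Agent.P127 Vale.Agent.P127.Stk Vale.Agent.P127.U Vale.Agent.P127.U.Sys Vale.Agent.P122.C2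
  Vale.Agent.P122.E

/-! ### rare events -/

theorem prb_mono {S : Sys} {E E' : ∀ i, S.Ω i → Prop} {i : ℕ} (h : ∀ ω, 0 < (S.P i).w ω → E i ω → E' i ω) :
    prb S E i ≤ prb S E' i := by
  unfold prb
  refine (S.P i).ex_mono fun ω hω => ?_
  by_cases h1 : E i ω
  · rw [if_pos h1, if_pos (h ω hω h1)]
  · rw [if_neg h1]
    split_ifs
    · exact zero_le_one
    · exact le_rfl

theorem rare_mono {S : Sys} {E E' : ∀ i, S.Ω i → Prop}
    (h : ∀ᶠ i in (uf : Filter ℕ), ∀ ω, 0 < (S.P i).w ω → E i ω → E' i ω) (hr : Rare S E') : Rare S E := by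
  obtain ⟨η, hη, h1⟩ := hr
  refine ⟨η, hη, ?_⟩
  filter_upwards [h, h1] with i h2 h3
  exact (prb_mono h2).trans h3

/-! ### the angle as a function of the node -/

open Classical in
/-- the angle of the box `W c` as a function of the node of level `c` -/
noncomputable def ang {K : ℕ} (F : Flg K) (W : ℕ → F.S.BX) (c i : ℕ) (S : Nd) : ℝ :=
  if h : ∃ ω, 0 < (F.S.P i).w ω ∧ F.N c i ω = S then (W c i).θ h.choose else 0

theorem ang_spec {K : ℕ} {F : Flg K} {W : ℕ → F.S.BX} {c : ℕ}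
    (h : Sys.Fn (fun i ω => (W c i).θ ω) (F.N c)) :
    ∀ᶠ i in (uf : Filter ℕ), ∀ ω, 0 < (F.S.P i).w ω → (W c i).θ ω = ang F W c i (F.N c i ω) := by
  filter_upwards [h] with i hi ω hω
  have hex : ∃ ω', 0 < (F.S.P i).w ω' ∧ F.N c i ω' = F.N c i ω := ⟨ω, hω, rfl⟩
  unfold ang
  rw [dif_pos hex]
  exact hi ω hex.choose hω hex.choose_spec.1 hex.choose_spec.2.symm

/-! ### frames -/

theorem frames {K : ℕ} {F : Flg K} {J θ H e : ℕ → ℝ} {W : ℕ → F.S.BX} {kk jj : ℕ → ℕ → ℕ} {κ C₀ c1 : ℝ} (hK : 1 ≤ K)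
    (h : RegA F J θ H e W kk jj) (h8 : E8 κ C₀) (hc1 : 0 < c1) (h1 : 1 / (K : ℝ) ≤ κ * c1) (h2 : C₀ / K ≤ c1) :
    ∃ φ : ℕ → ℕ → Nd → ℝ, ∀ c, 1 ≤ c → c < K → Thin F e jj κ c1 c →
      Rare F.S fun i ω => (2 : ℝ) ^ (-(c1 / 2 * F.S.L i)) < |Real.sin ((W c i).θ ω - φ c i (F.sg c i ω))| := by
  classical
  have key : ∀ c, ∃ φ : ℕ → Nd → ℝ, 1 ≤ c → c < K → Thin F e jj κ c1 c →
      Rare F.S fun i ω => (2 : ℝ) ^ (-(c1 / 2 * F.S.L i)) < |Real.sin ((W c i).θ ω - φ i (F.sg c i ω))| := by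
    intro c
    by_cases hc : 1 ≤ c ∧ c < K ∧ Thin F e jj κ c1 c
    · obtain ⟨a1, a2, a3⟩ := hc
      have a4 : (((c + 1 : ℕ) : ℝ) - c) / K ≤ κ * c1 := by
        push_cast
        rw [add_sub_cancel_left]
        exact h1
      obtain ⟨ψ, b1, -⟩ := h8 F J θ H e W kk jj hK h c1 c c (c + 1) hc1 a1 le_rfl (Nat.le_succ c) (by omega) (by omega)
        a4 h2 a3 a3
      refine ⟨fun i σ => ψ i ⟨fun k => σ.τ k / 2 ^ ((c + 1 - c) * F.n i), σ.o, σ.T⟩, fun _ _ _ => ?_⟩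
      have e1 : ∀ i ω, (⟨fun k => (F.sg c i ω).τ k / 2 ^ ((c + 1 - c) * F.n i), (F.sg c i ω).o, (F.sg c i ω).T⟩ : Nd) =
          F.sig c (c + 1) i ω := by
        intro i ω
        have e2 : c + 1 - c = 1 := by omega
        simp only [Flg.sg, Flg.sig, Nd.sg, e2, one_mul]
      simp only [e1]
      exact b1
    · exact ⟨fun _ _ => 0, fun a1 a2 a3 => absurd ⟨a1, a2, a3⟩ hc⟩
  choose φ hφ using key
  exact ⟨φ, hφ⟩

/-! ### bad nodes -/

/-- the node `S` of level `c` is bad -/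
def bad {K : ℕ} (F : Flg K) (W : ℕ → F.S.BX) (c1 : ℝ) (φ : ℕ → ℕ → Nd → ℝ) (c i : ℕ) (S : Nd) : Prop :=
  (2 : ℝ) ^ (-(c1 / 2 * F.S.L i)) < |Real.sin (ang F W c i S - φ c i (S.sg (F.n i)))|

theorem bad_rare {K : ℕ} {F : Flg K} {W : ℕ → F.S.BX} {c1 : ℝ} {φ : ℕ → ℕ → Nd → ℝ} {c : ℕ}
    (hW : Sys.Fn (fun i ω => (W c i).θ ω) (F.N c))
    (hr : Rare F.S fun i ω => (2 : ℝ) ^ (-(c1 / 2 * F.S.L i)) < |Real.sin ((W c i).θ ω - φ c i (F.sg c i ω))|) :
    Rare F.S fun i ω => bad F W c1 φ c i (F.N c i ω) := by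
  refine rare_mono ?_ hr
  filter_upwards [ang_spec hW] with i hi ω hω hb
  have h1 := hi ω hω
  unfold bad at hb
  rw [h1]
  exact hb

theorem good_of_not_bad {K : ℕ} {F : Flg K} {W : ℕ → F.S.BX} {c1 : ℝ} {φ : ℕ → ℕ → Nd → ℝ} {c : ℕ}
    (hW : Sys.Fn (fun i ω => (W c i).θ ω) (F.N c)) :
    ∀ᶠ i in (uf : Filter ℕ), ∀ ω, 0 < (F.S.P i).w ω → ¬ bad F W c1 φ c i (F.N c i ω) →
      |Real.sin ((W c i).θ ω - φ c i (F.sg c i ω))| ≤ (2 : ℝ) ^ (-(c1 / 2 * F.S.L i)) := by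
  filter_upwards [ang_spec hW] with i hi ω hω hb
  have h1 := hi ω hω
  unfold bad at hb
  rw [not_lt] at hb
  rw [h1]
  exact hb

/-! ### a rare event does not contain a dense law -/

theorem prb_eq_one {S : Sys} {E : ∀ i, S.Ω i → Prop} {i : ℕ} (h : ∀ ω, 0 < (S.P i).w ω → E i ω) : prb S E i = 1 := by
  unfold prb
  rw [(S.P i).ex_congr (g := fun _ => 1) fun ω hω => if_pos (h ω hω)]
  unfold Law.ex
  simp [(S.P i).sum_one]

theorem prb_pull_le {S' S : Sys} (d : Dns S' S) {ε : ℝ} {i : ℕ}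
    (h : ∀ ω, (S'.P i).pr (d.π i) ω ≤ (2 : ℝ) ^ (ε * S.L i) * (S.P i).w ω) (E : ∀ i, S.Ω i → Prop) :
    prb S' (fun i ω => E i (d.π i ω)) i ≤ (2 : ℝ) ^ (ε * S.L i) * prb S E i := by
  classical
  unfold prb Law.ex
  have h1 : ∑ ω, (S'.P i).w ω * (if E i (d.π i ω) then (1 : ℝ) else 0) =
      ∑ ω, (S'.P i).pr (d.π i) ω * (if E i ω then (1 : ℝ) else 0) := by
    rw [← Finset.sum_fiberwise (univ : Finset (S'.Ω i)) (d.π i)]
    refine Finset.sum_congr rfl fun ω _ => ?_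
    unfold Law.pr
    rw [Finset.sum_mul]
    refine Finset.sum_congr ?_ fun ω' hω' => ?_
    · ext ω'
      simp
    · rw [(mem_filter.1 hω').2]
  calc _ = _ := h1
    _ ≤ ∑ ω, (2 : ℝ) ^ (ε * S.L i) * ((S.P i).w ω * (if E i ω then (1 : ℝ) else 0)) := by
        refine Finset.sum_le_sum fun ω _ => ?_
        rw [← mul_assoc]
        refine mul_le_mul_of_nonneg_right (h ω) ?_
        split_ifs
        · exact zero_le_one
        · exact le_rfl
    _ = _ := by rw [Finset.mul_sum]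

/-- a dense law is not supported in a rare event -/
theorem not_rare_all {S' S : Sys} (d : Dns S' S) {E : ∀ i, S.Ω i → Prop} (hr : Rare S E) :
    ∀ᶠ i in (uf : Filter ℕ), ∃ ω, 0 < (S'.P i).w ω ∧ ¬ E i (d.π i ω) := by
  obtain ⟨η, hη, h1⟩ := hr
  filter_upwards [h1, d.dom (η / 2) (by positivity), S.L_pos] with i h2 h3 h4
  by_contra hne
  push Not at hne
  have h5 := prb_pull_le d h3 E
  rw [prb_eq_one hne] at h5
  have h6 : (2 : ℝ) ^ (η / 2 * S.L i) * prb S E i ≤ (2 : ℝ) ^ (η / 2 * S.L i) * (2 : ℝ) ^ (-(η * S.L i)) :=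
    mul_le_mul_of_nonneg_left h2 (by positivity)
  rw [← Real.rpow_add (by norm_num)] at h6
  have h7 : (0 : ℝ) < S.L i := by exact_mod_cast h4
  have h8 : (2 : ℝ) ^ (η / 2 * S.L i + -(η * S.L i)) < 1 := by
    refine Real.rpow_lt_one_of_one_lt_of_neg (by norm_num) ?_
    nlinarith
  linarith

end Vale.Agent.P122.H679
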