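import Vale.Agent.P122.H679.Frames
import Vale.Agent.P122.H610.Seq

/-!
# P122 / H679 : a refinement on which no reached node is bad (helper679)

* `good_of_rare` : finite form.
* `good_of_dns` : sequence form; a node label good / bad which is constant on a dense refinement is good if the bad nodes
  are rare.
* `lab_ref` : refinement of a sequence of valid structures such that finitely many node predicates become constant.
-/

set_option autoImplicit false

namespace Vale.Agent.P122.H679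

open Filter Topology Finset Vale.Agent.P127 Vale.Agent.P127.Stk Vale.Agent.P127.U Vale.Agent.P127.U.Sys Vale.Agent.P122.C2
  Vale.Agent.P122.E Vale.Agent.P122.H610

section finite

variable {C : ℝ} {n K : ℕ} {F : Amp C n K} {V V' : Val} {ρ' : ℝ} {a : ℕ → ℝ} {J' : ℕ → ℕ}

open Classical in
/-- **finite form** : if all nodes of level `c` of `V'` are bad, the bad event has at least `#fl'` flags -/
theorem card_bad_ge (h' : V'.Ok F ρ' a J') (hle : V'.Le V) {c : ℕ} (hc : c ≤ K) {B : Nd → Prop}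
    (hB : ∀ S ∈ V'.D F.s n c, B S) :
    (Fg V' F.s n K).card ≤ ((Fg V F.s n K).filter fun f => B (nd F.s n K c f)).card := by
  refine card_le_card fun f hf => ?_
  rw [mem_filter]
  exact ⟨Fg_le hle K hf, hB _ (nd_D h' hc hf)⟩

open Classical in
/-- **finite form** : probability of the bad event under the uniform law on the flags of `V` -/
theorem good_of_rare (hne : (Fg V F.s n K).Nonempty) (h' : V'.Ok F ρ' a J') (hle : V'.Le V) {c : ℕ} (hc : c ≤ K)
    {B : Nd → Prop} (hB : ∀ S ∈ V'.D F.s n c, B S) {M : ℝ} (hM : 0 < M)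
    (hcard : ((Fg V F.s n K).card : ℝ) ≤ M * (Fg V' F.s n K).card) :
    1 / M ≤ (uL (Fg V F.s n K) hne).ex fun f => if B (nd F.s n K c f.1) then 1 else 0 := by
  have h1 : (uL (Fg V F.s n K) hne).ex (fun f => if B (nd F.s n K c f.1) then (1 : ℝ) else 0) =
      (((Fg V F.s n K).filter fun f => B (nd F.s n K c f)).card : ℝ) / (Fg V F.s n K).card := by
    unfold Law.ex
    have h2 : ∀ f ∈ (univ : Finset {x // x ∈ Fg V F.s n K}), (uL (Fg V F.s n K) hne).w f * (if B (nd F.s n K c f.1) then (1 : ℝ) else 0) =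
        if B (nd F.s n K c f.1) then 1 / ((Fg V F.s n K).card : ℝ) else 0 := by
      intro f _
      rw [uL_w]
      split_ifs
      · rw [mul_one]
      · rw [mul_zero]
    rw [sum_congr rfl h2, sum_coe_sort (Fg V F.s n K) (fun f => if B (nd F.s n K c f) then 1 / ((Fg V F.s n K).card : ℝ) else 0),
      ← sum_filter, sum_const, nsmul_eq_mul, mul_one_div]
  rw [h1]
  have h2 : (0 : ℝ) < (Fg V F.s n K).card := by exact_mod_cast hne.card_pos
  have h3 : ((Fg V' F.s n K).card : ℝ) ≤ (((Fg V F.s n K).filter fun f => B (nd F.s n K c f)).card : ℝ) := by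
    exact_mod_cast card_bad_ge h' hle hc hB
  rw [div_le_div_iff₀ hM h2, one_mul]
  calc ((Fg V F.s n K).card : ℝ) ≤ M * (Fg V' F.s n K).card := hcard
    _ ≤ M * (((Fg V F.s n K).filter fun f => B (nd F.s n K c f)).card : ℝ) := mul_le_mul_of_nonneg_left h3 hM.le
    _ = _ := mul_comm _ _

end finite

section seq

variable {K : ℕ} {Z : CS K} {W W' : VS Z}

/-- **sequence form** -/
theorem good_of_dns (d : Dns W'.sys W.sys) (hπ : ∀ i ω, (d.π i ω).1 = ω.1) {c : ℕ} (hc : c ≤ K)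
    {B : ℕ → Nd → Prop} (hr : Rare W.sys fun i ω => B i (W.flg.N c i ω))
    (hlab : ∀ᶠ i in (uf : Filter ℕ), (∀ S ∈ (W'.V i).D (Z.F i).s (Z.n i) c, B i S) ∨
      (∀ S ∈ (W'.V i).D (Z.F i).s (Z.n i) c, ¬ B i S)) :
    ∀ᶠ i in (uf : Filter ℕ), ∀ S ∈ (W'.V i).D (Z.F i).s (Z.n i) c, ¬ B i S := by
  filter_upwards [not_rare_all d hr, hlab] with i h1 h2
  rcases h2 with h2 | h2
  · exfalso
    obtain ⟨ω, -, hω⟩ := h1
    refine hω ?_
    have e : W.flg.N c i (d.π i ω) = nd (Z.F i).s (Z.n i) K c ω.1 := by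
      rw [VS.flg_N, hπ]
    rw [e]
    exact h2 _ (nd_D (W'.ok i) hc ω.2)
  · exact h2

/-- the loss of one refinement of all levels is polynomial -/
theorem los_le (q n K m : ℕ) (hm : m ≤ K + 1) (hq : 0 < q) : (los q n K : ℕ) ^ m ≤ (q * (n + 2) ^ (2 * K)) ^ (K + 1) := by
  have h1 : los q n K ≤ q * (n + 2) ^ (2 * K) := by
    unfold los
    refine Nat.mul_le_mul_left q ?_
    rw [pow_mul]
    refine Nat.pow_le_pow_left ?_ K
    nlinarith
  have h2 : 0 < q * (n + 2) ^ (2 * K) := by positivity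
  calc (los q n K : ℕ) ^ m ≤ (q * (n + 2) ^ (2 * K)) ^ m := Nat.pow_le_pow_left h1 m
    _ ≤ (q * (n + 2) ^ (2 * K)) ^ (K + 1) := Nat.pow_le_pow_right h2 hm

/-- polynomials are subexponential along the sequence -/
theorem poly_small (Z : CS K) (A : ℕ) {ε : ℝ} (hε : 0 < ε) :
    ∀ᶠ i in (uf : Filter ℕ), ((Z.n i : ℝ) + 2) ^ A ≤ (2 : ℝ) ^ (ε * Z.n i) := by
  have hlog : 0 < Real.log 2 := Real.log_pos (by norm_num)
  have h1 : Tendsto (fun x : ℝ => x ^ (A : ℝ) / Real.exp (ε * Real.log 2 * x)) atTop (𝓝 0) :=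
    (isLittleO_rpow_exp_pos_mul_atTop (A : ℝ) (by positivity : 0 < ε * Real.log 2)).tendsto_div_nhds_zero
  have h2 : Tendsto (fun i => ((Z.n i : ℝ) + 2)) (uf : Filter ℕ) atTop :=
    tendsto_atTop_add_const_right _ _ (tendsto_natCast_atTop_atTop.comp Z.ntop)
  have h3 := (h1.comp h2).eventually (gt_mem_nhds (show (0:ℝ) < Real.exp (-(ε * Real.log 2 * 2)) from Real.exp_pos _))
  filter_upwards [h3] with i hi
  simp only [Function.comp] at hi
  rw [div_lt_iff₀ (Real.exp_pos _), ← Real.exp_add] at hi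
  rw [Real.rpow_natCast] at hi
  refine hi.le.trans (le_of_eq ?_)
  rw [Real.rpow_def_of_pos (by norm_num)]
  congr 1
  ring

open Classical in
/-- refinement which makes the node predicates `B c` constant at all levels `c ≤ K` -/
theorem lab_ref (W : VS Z) (B : ℕ → ℕ → Nd → Prop) :
    ∃ W' : VS Z, (∀ i, (W'.V i).Le (W.V i)) ∧ (∀ i, W'.a i = W.a i) ∧
      (∀ i, W.ρ i / ((Z.n i : ℝ) + 2) ^ ((2 * K + 1) * (K + 1)) ≤ W'.ρ i) ∧
      (∀ i, ((W.V i).X.card : ℝ) ≤ ((Z.n i : ℝ) + 2) ^ ((2 * K + 1) * (K + 1)) * (W'.V i).X.card) ∧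
      ∀ i c, c ≤ K → (∀ S ∈ (W'.V i).D (Z.F i).s (Z.n i) c, B c i S) ∨
        (∀ S ∈ (W'.V i).D (Z.F i).s (Z.n i) c, ¬ B c i S) := by
  have hstep : ∀ i, ∃ (V' : Val) (J' : ℕ → ℕ) (u : ℕ → Fin 2), V'.Le (W.V i) ∧
      V'.Ok (Z.F i) (W.ρ i / ((Z.n i : ℝ) + 2) ^ ((2 * K + 1) * (K + 1))) (W.a i) J' ∧
      (∀ c, c < K + 1 → ∀ S ∈ V'.D (Z.F i).s (Z.n i) c, (if B c i S then (0 : Fin 2) else 1) = u c) ∧
      ((W.V i).X.card : ℝ) ≤ ((Z.n i : ℝ) + 2) ^ ((2 * K + 1) * (K + 1)) * V'.X.card := by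
    intro i
    obtain ⟨V', J', u, h1, h2, h3, h4⟩ := tnref (W.V i) (W.ρ i) (W.a i) (W.J i) (W.ok i) (W.ρpos i) (fun _ => 1)
      (fun _ _ => zero_le_one) 2 (by norm_num) (fun c S => if B c i S then (0 : Fin 2) else 1) (K + 1) le_rfl
    have hl : ((los 2 (Z.n i) K : ℕ) : ℝ) ^ (K + 1) ≤ ((Z.n i : ℝ) + 2) ^ ((2 * K + 1) * (K + 1)) := by
      have h5 := los_le 2 (Z.n i) K (K + 1) le_rfl (by norm_num)
      have h6 : (2 * (Z.n i + 2) ^ (2 * K)) ^ (K + 1) ≤ (Z.n i + 2) ^ ((2 * K + 1) * (K + 1)) := by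
        rw [pow_mul (Z.n i + 2) (2 * K + 1) (K + 1)]
        refine Nat.pow_le_pow_left ?_ _
        rw [pow_succ, mul_comm]
        exact Nat.mul_le_mul_left _ (by omega)
      exact_mod_cast h5.trans h6
    refine ⟨V', J', u, h1, h2.mono ?_, h3, ?_⟩
    · exact div_le_div_of_nonneg_left (W.ρpos i).le (pow_pos (by exact_mod_cast los_pos (by norm_num)) _) hl
    · have h5 : ((W.V i).X.card : ℝ) ≤ ((los 2 (Z.n i) K : ℕ) : ℝ) ^ (K + 1) * V'.X.card := by
        simpa using h4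
      exact h5.trans (mul_le_mul_of_nonneg_right hl (Nat.cast_nonneg _))
  choose V' J' u h1 h2 h3 h4 using hstep
  have hp : ∀ i, (1 : ℝ) ≤ ((Z.n i : ℝ) + 2) ^ ((2 * K + 1) * (K + 1)) := fun i => by
    refine one_le_pow₀ ?_
    have : (0 : ℝ) ≤ Z.n i := Nat.cast_nonneg _
    linarith
  refine ⟨⟨V', fun i => W.ρ i / ((Z.n i : ℝ) + 2) ^ ((2 * K + 1) * (K + 1)), W.a, J', h2, ?_, ?_, ?_, ?_, ?_⟩,
    h1, fun _ => rfl, fun _ => le_rfl, h4, ?_⟩
  · intro i
    rw [← card_pos]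
    have h5 := h4 i
    have h6 : (0 : ℝ) < (W.V i).X.card := by exact_mod_cast (W.ne i).card_pos
    by_contra h7
    have h8 : (V' i).X.card = 0 := by omega
    rw [h8] at h5
    simp only [Nat.cast_zero, mul_zero] at h5
    linarith
  · intro i x hx
    exact W.tim i x ((h1 i).1 hx)
  · intro i
    exact div_pos (W.ρpos i) (lt_of_lt_of_le one_pos (hp i))
  · intro i
    exact (div_le_self (W.ρpos i).le (hp i)).trans (W.ρ1 i)
  · intro ε hε
    filter_upwards [W.ρbig (ε / 2) (by positivity), poly_small Z ((2 * K + 1) * (K + 1)) (by positivity : 0 < ε / 2)] with i h5 h6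
    rw [le_div_iff₀ (lt_of_lt_of_le one_pos (hp i))]
    calc (2 : ℝ) ^ (-(ε * Z.n i)) * ((Z.n i : ℝ) + 2) ^ ((2 * K + 1) * (K + 1))
        ≤ (2 : ℝ) ^ (-(ε * Z.n i)) * (2 : ℝ) ^ (ε / 2 * Z.n i) := mul_le_mul_of_nonneg_left h6 (by positivity)
      _ = (2 : ℝ) ^ (-(ε / 2 * Z.n i)) := by
        rw [← Real.rpow_add (by norm_num)]
        congr 1
        ring
      _ ≤ W.ρ i := h5
  · intro i c hc
    by_cases hu : u i c = 0
    · left
      intro S hS
      have h5 := h3 i c (by omega) S hS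
      rw [hu] at h5
      by_contra hB
      rw [if_neg hB] at h5
      exact absurd h5 (by decide)
    · right
      intro S hS hB
      have h5 := h3 i c (by omega) S hS
      rw [if_pos hB] at h5
      exact hu h5.symm

end seq

end Vale.Agent.P122.H679
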